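import Vale.Agent.P050.ChainCount

/-!
# P050: Sidorenko's inequality (two-sided form) for bipartite hosts with nested neighbourhoods

The bipartite graph `H` has parts `Fin a`, `Fin b` and edge set `E ⊆ Fin a × Fin b`.
-/

open Finset

namespace Vale.Agent.Results.P050.ChainGraphHosts

theorem result :
    (∀ (a b s r : ℕ), 0 < s → 0 < r →
      ∀ (M : Fin s → Fin r → Prop) [∀ x y, Decidable (M x y)],
      (∀ x x' y, x ≤ x' → M x y → M x' y) → (∀ x y y', y ≤ y' → M x y → M x y') →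
      ∀ E : Finset (Fin a × Fin b),
      (((univ.filter (fun q : Fin s × Fin r => M q.1 q.2)).card : ℝ) / (s * r)) ^ E.card
        ≤ ((univ.filter (fun z : (Fin a → Fin s) × (Fin b → Fin r) =>
            ∀ p ∈ E, M (z.1 p.1) (z.2 p.2))).card : ℝ) / (s ^ a * r ^ b)) ∧
    (∀ (a b : ℕ) (X Y : Type) [DistribLattice X] [Fintype X] [DecidableEq X]
      [DistribLattice Y] [Fintype Y] [DecidableEq Y] (α : X → ℝ) (β : Y → ℝ) (W : X → Y → ℝ),
      (∀ x, 0 ≤ α x) → (∀ y, 0 ≤ β y) → ∑ x, α x = 1 → ∑ y, β y = 1 →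
      (∀ s t, α s * α t ≤ α (s ⊓ t) * α (s ⊔ t)) → (∀ s t, β s * β t ≤ β (s ⊓ t) * β (s ⊔ t)) →
      (∀ x y, 0 ≤ W x y) → (∀ x x' y, x ≤ x' → W x y ≤ W x' y) →
      (∀ x y y', y ≤ y' → W x y ≤ W x y') →
      ∀ E : Finset (Fin a × Fin b),
      (∑ x, ∑ y, α x * β y * W x y) ^ E.card
        ≤ ∑ z : (Fin a → X) × (Fin b → Y), (∏ v, α (z.1 v)) * (∏ v, β (z.2 v)) *
            ∏ p ∈ E, W (z.1 p.1) (z.2 p.2)) :=
  ⟨fun _ _ _ _ hs hr M _ hMl hMr E => Vale.Agent.P050.chain_count hs hr M hMl hMr E,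
   fun _ _ _ _ _ _ _ _ _ _ α β W h1 h2 h3 h4 h5 h6 h7 h8 h9 E =>
    Vale.Agent.P050.fkg_bip α β h1 h2 h3 h4 h5 h6 W h7 h8 h9 E⟩

end Vale.Agent.Results.P050.ChainGraphHosts
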