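import Vale.Agent.P050.Sym

/-!
# P050: Sidorenko's inequality `t(H,G) ≥ p(G)^{e(H)}` for simple chain-graph hosts

`H` is a simple bipartite graph on `Fin a ⊕ Fin b` (no edges inside the two parts) with at
least `a + b - 1` edges (for instance any connected one); `G` is a simple bipartite graph on
`Fin s ⊕ Fin r` whose adjacency between the parts is monotone in both coordinates.
-/

open Finset

namespace Vale.Agent.Results.P050.ChainGraphsSymmetric

theorem result (a b s r : ℕ) (ha : 0 < a) (hb : 0 < b) (hs : 0 < s) (hr : 0 < r)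
    (H : SimpleGraph (Fin a ⊕ Fin b)) [DecidableRel H.Adj]
    (G : SimpleGraph (Fin s ⊕ Fin r)) [DecidableRel G.Adj]
    (hH1 : ∀ i i', ¬ H.Adj (Sum.inl i) (Sum.inl i'))
    (hH2 : ∀ j j', ¬ H.Adj (Sum.inr j) (Sum.inr j'))
    (hG1 : ∀ x x', ¬ G.Adj (Sum.inl x) (Sum.inl x'))
    (hG2 : ∀ y y', ¬ G.Adj (Sum.inr y) (Sum.inr y'))
    (hGl : ∀ x x' y, x ≤ x' → G.Adj (Sum.inl x) (Sum.inr y) → G.Adj (Sum.inl x') (Sum.inr y))
    (hGr : ∀ x y y', y ≤ y' → G.Adj (Sum.inl x) (Sum.inr y) → G.Adj (Sum.inl x) (Sum.inr y'))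
    (he : a + b ≤ H.edgeFinset.card + 1) :
    (2 * (G.edgeFinset.card : ℝ) / ((s : ℝ) + r) ^ 2) ^ H.edgeFinset.card
      ≤ ((univ.filter (fun f : Fin a ⊕ Fin b → Fin s ⊕ Fin r =>
          ∀ u v, H.Adj u v → G.Adj (f u) (f v))).card : ℝ) / ((s : ℝ) + r) ^ (a + b) :=
  Vale.Agent.P050.chain_sym ha hb hs hr H G hH1 hH2 hG1 hG2 hGl hGr he

end Vale.Agent.Results.P050.ChainGraphsSymmetric
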