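import Vale.Agent.Results.P050.MonotoneKernels
import Vale.Agent.Results.P050.ChainGraphHosts
import Vale.Agent.Results.P050.ChainGraphsSymmetric

/-!
# P050: conjunction of the results on Sidorenko's inequality for monotone hosts

`tdens H α W` is the homomorphism density `t(H, W)` of `H` in the step kernel given by the finite
probability space `(X, α)` and the weights `W`; `edens α W` is `t(K_2, W)`
(file `Vale/Agent/P050/Defs.lean`).
-/

open Finset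

namespace Vale.Agent.Results.P050.AllParts

open Vale.Agent.P050

theorem result :
    (∀ (a b s r : ℕ), 0 < a → 0 < b → 0 < s → 0 < r →
      ∀ (H : SimpleGraph (Fin a ⊕ Fin b)) [DecidableRel H.Adj]
        (G : SimpleGraph (Fin s ⊕ Fin r)) [DecidableRel G.Adj],
      (∀ i i', ¬ H.Adj (Sum.inl i) (Sum.inl i')) → (∀ j j', ¬ H.Adj (Sum.inr j) (Sum.inr j')) →
      (∀ x x', ¬ G.Adj (Sum.inl x) (Sum.inl x')) → (∀ y y', ¬ G.Adj (Sum.inr y) (Sum.inr y')) →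
      (∀ x x' y, x ≤ x' → G.Adj (Sum.inl x) (Sum.inr y) → G.Adj (Sum.inl x') (Sum.inr y)) →
      (∀ x y y', y ≤ y' → G.Adj (Sum.inl x) (Sum.inr y) → G.Adj (Sum.inl x) (Sum.inr y')) →
      a + b ≤ H.edgeFinset.card + 1 →
      (2 * (G.edgeFinset.card : ℝ) / ((s : ℝ) + r) ^ 2) ^ H.edgeFinset.card
        ≤ ((univ.filter (fun f : Fin a ⊕ Fin b → Fin s ⊕ Fin r =>
            ∀ u v, H.Adj u v → G.Adj (f u) (f v))).card : ℝ) / ((s : ℝ) + r) ^ (a + b)) ∧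
    (∀ (k : ℕ) (X : Type) [DistribLattice X] [Fintype X] [DecidableEq X]
      (H : SimpleGraph (Fin k)) [DecidableRel H.Adj] (α : X → ℝ) (W : X → X → ℝ),
      (∀ x, 0 ≤ α x) → ∑ x, α x = 1 → (∀ a b, α a * α b ≤ α (a ⊓ b) * α (a ⊔ b)) →
      (∀ x y, 0 ≤ W x y) → (∀ x y, W x y = W y x) → (∀ x x' y, x ≤ x' → W x y ≤ W x' y) →
      edens α W ^ H.edgeFinset.card ≤ tdens H α W) ∧
    (∀ (a b : ℕ) (X Y : Type) [DistribLattice X] [Fintype X] [DecidableEq X]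
      [DistribLattice Y] [Fintype Y] [DecidableEq Y] (α : X → ℝ) (β : Y → ℝ) (W : X → Y → ℝ),
      (∀ x, 0 ≤ α x) → (∀ y, 0 ≤ β y) → ∑ x, α x = 1 → ∑ y, β y = 1 →
      (∀ s t, α s * α t ≤ α (s ⊓ t) * α (s ⊔ t)) → (∀ s t, β s * β t ≤ β (s ⊓ t) * β (s ⊔ t)) →
      (∀ x y, 0 ≤ W x y) → (∀ x x' y, x ≤ x' → W x y ≤ W x' y) →
      (∀ x y y', y ≤ y' → W x y ≤ W x y') →
      ∀ E : Finset (Fin a × Fin b),
      (∑ x, ∑ y, α x * β y * W x y) ^ E.card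
        ≤ ∑ z : (Fin a → X) × (Fin b → Y), (∏ v, α (z.1 v)) * (∏ v, β (z.2 v)) *
            ∏ p ∈ E, W (z.1 p.1) (z.2 p.2)) :=
  ⟨fun a b s r ha hb hs hr H _ G _ h1 h2 h3 h4 h5 h6 he =>
      ChainGraphsSymmetric.result a b s r ha hb hs hr H G h1 h2 h3 h4 h5 h6 he,
   MonotoneKernels.result.1, ChainGraphHosts.result.2⟩

end Vale.Agent.Results.P050.AllParts
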