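import Vale.Agent.P050.Fkg

/-!
# P050: Sidorenko's inequality for monotone step kernels

`tdens H α W` is the homomorphism density `t(H, W)` of `H` in the step kernel given by the finite
probability space `(X, α)` and the weights `W`; `edens α W` is `t(K_2, W)`
(file `Vale/Agent/P050/Defs.lean`).
-/

open Finset

namespace Vale.Agent.Results.P050.MonotoneKernels

open Vale.Agent.P050

theorem result :
    (∀ (k : ℕ) (X : Type) [DistribLattice X] [Fintype X] [DecidableEq X]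
      (H : SimpleGraph (Fin k)) [DecidableRel H.Adj] (α : X → ℝ) (W : X → X → ℝ),
      (∀ x, 0 ≤ α x) → ∑ x, α x = 1 → (∀ a b, α a * α b ≤ α (a ⊓ b) * α (a ⊔ b)) →
      (∀ x y, 0 ≤ W x y) → (∀ x y, W x y = W y x) → (∀ x x' y, x ≤ x' → W x y ≤ W x' y) →
      edens α W ^ H.edgeFinset.card ≤ tdens H α W) ∧
    (∀ (k n : ℕ) (H : SimpleGraph (Fin k)) [DecidableRel H.Adj] (α : Fin n → ℝ)
      (W : Fin n → Fin n → ℝ),
      (∀ x, 0 ≤ α x) → ∑ x, α x = 1 →
      (∀ x y, 0 ≤ W x y) → (∀ x y, W x y = W y x) → (∀ x x' y, x ≤ x' → W x y ≤ W x' y) →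
      edens α W ^ H.edgeFinset.card ≤ tdens H α W) := by
  have main : ∀ (k : ℕ) (X : Type) [DistribLattice X] [Fintype X] [DecidableEq X]
      (H : SimpleGraph (Fin k)) [DecidableRel H.Adj] (α : X → ℝ) (W : X → X → ℝ),
      (∀ x, 0 ≤ α x) → ∑ x, α x = 1 → (∀ a b, α a * α b ≤ α (a ⊓ b) * α (a ⊔ b)) →
      (∀ x y, 0 ≤ W x y) → (∀ x y, W x y = W y x) → (∀ x x' y, x ≤ x' → W x y ≤ W x' y) →
      edens α W ^ H.edgeFinset.card ≤ tdens H α W := by
    intro k X _ _ _ H _ α W h0 h1 hα hW0 hsym hmono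
    exact sidorenko_monotone H α h0 h1 hα W hW0 hmono
      (fun x y y' h => by rw [hsym x y, hsym x y']; exact hmono _ _ _ h)
  refine ⟨main, ?_⟩
  intro k n H _ α W h0 h1 hW0 hsym hmono
  refine main k (Fin n) H α W h0 h1 ?_ hW0 hsym hmono
  intro a b
  rcases le_total a b with h | h
  · rw [inf_eq_left.2 h, sup_eq_right.2 h]
  · rw [inf_eq_right.2 h, sup_eq_left.2 h, mul_comm]

end Vale.Agent.Results.P050.MonotoneKernels
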